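import Vale.Agent.P281.H740.TL.Retr
import Vale.Agent.P281.H150.Gen.SThin
import Vale.Agent.P281.H64.SpecG

/-!
# P281, project T-W, block W2-C (helper125): general position with respect to thin sets
-/

open Set Filter Metric Vale.Agent.P281
open Vale.Agent.P281.H64.Thin (IsThinSet)
open Vale.Agent.P281.H64 (Cm IsProperFibration)
open Vale.Agent.P281.H150.Gen (SThin thin_of_isClosed exists_straight)
open scoped Topology ContDiff Manifold

noncomputable section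

namespace Vale.Agent.P281.H125.TW

/-- the identity theorem on a ball -/
theorem ball_zero {V : Type} [NormedAddCommGroup V] [NormedSpace ℂ V] {G : V → ℂ} {c : V} {r : ℝ}
    (hG : ∀ v ∈ ball c r, AnalyticAt ℂ G v) {v : V} (hv : v ∈ ball c r)
    (h : ∀ᶠ v' in 𝓝 v, G v' = 0) {w : V} (hw : w ∈ ball c r) : G w = 0 := by
  have h1 : AnalyticOnNhd ℂ G (ball c r) := hG
  exact h1.eqOn_zero_of_preconnected_of_eventuallyEq_zero (convex_ball c r).isPreconnected hv h hw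

variable {q c : ℕ} {Z Y : Type} [TopologicalSpace Z] [ChartedSpace (Cm (q + c)) Z]
  [IsManifold 𝓘(ℂ, Cm (q + c)) ω Z] [TopologicalSpace Y] [T2Space Y] [ChartedSpace (Cm q) Y]
  [IsManifold 𝓘(ℂ, Cm q) ω Y]

/-- the local statement -/
theorem loc_bad {h : Z → Y} (hh : ContMDiff 𝓘(ℂ, Cm (q + c)) 𝓘(ℂ, Cm q) ω h) {z₀ : Z}
    (hs : Function.Surjective (mfderiv 𝓘(ℂ, Cm (q + c)) 𝓘(ℂ, Cm q) h z₀)) {H : Set Z}
    (hH : IsThinSet (Cm (q + c)) H) :
    ∃ N ∈ 𝓝 z₀, SThin (Cm q) (h '' ({z | ∀ᶠ z' in 𝓝 z, h z' = h z → z' ∈ H} ∩ N)) := by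
  classical
  obtain ⟨g, hg, hg0, hgH⟩ := hH.2 z₀
  have hg : ContMDiffAt 𝓘(ℂ, Cm (q + c)) 𝓘(ℂ, ℂ) ω g z₀ := hg
  set ψ := chartAt (Cm (q + c)) z₀ with hψ
  set χ := chartAt (Cm q) (h z₀) with hχ
  have hψs : z₀ ∈ ψ.source := mem_chart_source _ z₀
  have hχs : h z₀ ∈ χ.source := mem_chart_source _ (h z₀)
  have hψm : ψ ∈ IsManifold.maximalAtlas 𝓘(ℂ, Cm (q + c)) ω Z :=
    IsManifold.chart_mem_maximalAtlas (I := 𝓘(ℂ, Cm (q + c))) (n := ω) z₀
  have hχm : χ ∈ IsManifold.maximalAtlas 𝓘(ℂ, Cm q) ω Y :=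
    IsManifold.chart_mem_maximalAtlas (I := 𝓘(ℂ, Cm q)) (n := ω) (h z₀)
  set F : Cm (q + c) → Cm q := fun u => χ (h (ψ.symm u)) with hF
  have hFa : AnalyticAt ℂ F (ψ z₀) := (H740.contDiffAt_loc (hh z₀)).analyticAt
  have hFs : Function.Surjective (fderiv ℂ F (ψ z₀)) := by
    have h1 := H740.mfderiv_loc ((hh z₀).mdifferentiableAt (by simp))
    rw [hF, ← h1]
    exact hs
  obtain ⟨κ, R, hRa, hR0, hRr, hRl⟩ := exists_straight hFa hFs
  have hψz : ψ.symm (ψ z₀) = z₀ := ψ.left_inv hψs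
  set p₀ := (F (ψ z₀), κ (ψ z₀)) with hp₀
  set Q := fun z : Z => (χ (h z), κ (ψ z)) with hQ
  have hQ0 : Q z₀ = p₀ := by
    show (χ (h z₀), κ (ψ z₀)) = (χ (h (ψ.symm (ψ z₀))), κ (ψ z₀))
    rw [hψz]
  have hhc : Continuous h := hh.continuous
  have hQc : Tendsto Q (𝓝 z₀) (𝓝 p₀) := by
    rw [← hQ0]
    have h1 : ContinuousAt (fun z => χ (h z)) z₀ := (χ.continuousAt hχs).comp hhc.continuousAt
    have h2 : ContinuousAt (fun z => κ (ψ z)) z₀ :=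
      κ.continuous.continuousAt.comp (ψ.continuousAt hψs)
    exact (h1.prodMk h2).tendsto
  set Ψ := fun p => ψ.symm (R p) with hΨ
  have hΨ0 : Ψ p₀ = z₀ := by
    show ψ.symm (R p₀) = z₀
    rw [hR0, hψz]
  have hRc : Tendsto R (𝓝 p₀) (𝓝 (ψ z₀)) := by
    have := hRa.continuousAt.tendsto
    rwa [hR0] at this
  have hΨc : Tendsto Ψ (𝓝 p₀) (𝓝 z₀) := by
    have h1 := (ψ.continuousAt_symm (ψ.map_source hψs)).tendsto
    rw [hψz] at h1
    exact h1.comp hRc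
  set G := fun p => g (Ψ p) with hG
  have hGa : AnalyticAt ℂ G p₀ := by
    have h1 : ContMDiffAt 𝓘(ℂ, Cm (q + c)) 𝓘(ℂ, Cm (q + c)) ω ψ.symm (R p₀) := by
      rw [hR0]
      exact (contMDiffOn_symm_of_mem_maximalAtlas hψm).contMDiffAt
        (ψ.open_target.mem_nhds (ψ.map_source hψs))
    have h2 := ContMDiffAt.comp (g := ψ.symm) (f := R) p₀ h1
      (contMDiffAt_iff_contDiffAt.2 hRa.contDiffAt)
    have h3 : ContMDiffAt 𝓘(ℂ, Cm (q + c)) 𝓘(ℂ, ℂ) ω g (Ψ p₀) := by rwa [hΨ0]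
    have h4 := ContMDiffAt.comp (g := g) (f := Ψ) p₀ h3 h2
    exact (contMDiffAt_iff_contDiffAt.1 h4).analyticAt
  -- the box
  have e1 : ∀ᶠ p in 𝓝 p₀, AnalyticAt ℂ G p ∧ F (R p) = p.1 ∧ R p ∈ ψ.target ∧
      ContinuousAt R p ∧ h (Ψ p) ∈ χ.source ∧ ∀ᶠ z in 𝓝 (Ψ p), z ∈ H → g z = 0 := by
    have h1 : ∀ᶠ p in 𝓝 p₀, R p ∈ ψ.target :=
      hRc.eventually (ψ.open_target.mem_nhds (ψ.map_source hψs))
    have h2 : ∀ᶠ p in 𝓝 p₀, ContinuousAt R p :=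
      hRa.eventually_analyticAt.mono fun p hp => hp.continuousAt
    have h3 : ∀ᶠ p in 𝓝 p₀, h (Ψ p) ∈ χ.source :=
      hΨc.eventually (hhc.continuousAt.eventually (χ.open_source.mem_nhds hχs))
    have h4 : ∀ᶠ p in 𝓝 p₀, ∀ᶠ z in 𝓝 (Ψ p), z ∈ H → g z = 0 :=
      hΨc.eventually (eventually_eventually_nhds.2 hgH)
    filter_upwards [hGa.eventually_analyticAt, hRr, h1, h2, h3, h4] with p a1 a2 a3 a4 a5 a6
    exact ⟨a1, a2, a3, a4, a5, a6⟩
  obtain ⟨r, hr, hbox⟩ := Metric.eventually_nhds_iff_ball.1 e1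
  have hbp : ∀ p : Cm q × LinearMap.ker (fderiv ℂ F (ψ z₀) : Cm (q + c) →ₗ[ℂ] Cm q),
      p ∈ ball p₀ r ↔ p.1 ∈ ball p₀.1 r ∧ p.2 ∈ ball p₀.2 r := by
    intro p
    rw [← ball_prod_same, mem_prod]
  have e3 : ∀ᶠ z in 𝓝 z₀, z ∈ ψ.source ∧ h z ∈ χ.source ∧ R (Q z) = ψ z := by
    have h1 : ∀ᶠ z in 𝓝 z₀, R (F (ψ z), κ (ψ z)) = ψ z :=
      (ψ.continuousAt hψs).eventually hRl
    filter_upwards [ψ.open_source.mem_nhds hψs,
      hhc.continuousAt.eventually (χ.open_source.mem_nhds hχs), h1] with z a1 a2 a3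
    refine ⟨a1, a2, ?_⟩
    have h2 : F (ψ z) = χ (h z) := by
      show χ (h (ψ.symm (ψ z))) = _
      rw [ψ.left_inv a1]
    rw [h2] at a3
    exact a3
  have e2 : ∃ p ∈ ball p₀ r, G p ≠ 0 := by
    by_contra hcon
    push Not at hcon
    refine hg0 ?_
    filter_upwards [e3, hQc.eventually (ball_mem_nhds p₀ hr)] with z ⟨a1, a2, a3⟩ a4
    have h1 := hcon _ a4
    have h2 : Ψ (Q z) = z := by
      show ψ.symm (R (Q z)) = z
      rw [a3, ψ.left_inv a1]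
    have h3 : g (Ψ (Q z)) = 0 := h1
    rwa [h2] at h3
  obtain ⟨⟨t₁, v₁⟩, hp₁, hG1⟩ := e2
  have hp₁' := (hbp _).1 hp₁
  set N : Set Z := {z | (z ∈ ψ.source ∧ h z ∈ χ.source ∧ R (Q z) = ψ z) ∧
    Q z ∈ ball p₀ (r / 2)} with hN
  set K₀ : Set (Cm q) := {t | t ∈ closedBall p₀.1 (r / 2) ∧ G (t, v₁) = 0} with hK₀
  have hcb : closedBall p₀.1 (r / 2) ⊆ ball p₀.1 r := closedBall_subset_ball (by linarith)
  have hGt : ∀ t ∈ ball p₀.1 r, AnalyticAt ℂ (fun t => G (t, v₁)) t := by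
    intro t ht
    have h1 := (hbox (t, v₁) ((hbp _).2 ⟨ht, hp₁'.2⟩)).1
    exact AnalyticAt.fun_comp (g := G) (f := fun t => (t, v₁)) h1
      (analyticAt_id.prod analyticAt_const)
  have htar : ∀ t ∈ ball p₀.1 r, t ∈ χ.target := by
    intro t ht
    obtain ⟨-, h1, -, -, h2, -⟩ := hbox (t, p₀.2) ((hbp _).2 ⟨ht, mem_ball_self hr⟩)
    have h3 : χ (h (Ψ (t, p₀.2))) = t := h1
    rw [← h3]
    exact χ.map_source h2
  have hK₀c : IsCompact K₀ := by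
    refine (isCompact_closedBall p₀.1 (r / 2)).of_isClosed_subset ?_ fun t ht => ht.1
    have h1 : ContinuousOn (fun t => G (t, v₁)) (closedBall p₀.1 (r / 2)) := fun t ht =>
      (hGt t (hcb ht)).continuousAt.continuousWithinAt
    exact h1.preimage_isClosed_of_isClosed isClosed_closedBall (isClosed_singleton (x := (0 : ℂ)))
  have hKc : IsClosed (χ.symm '' K₀) :=
    (hK₀c.image_of_continuousOn (χ.continuousOn_symm.mono fun t ht =>
      htar t (hcb ht.1))).isClosed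
  refine ⟨N, ?_, SThin.of_thin (T := χ.symm '' K₀) (thin_of_isClosed hKc ?_) ?_⟩
  · filter_upwards [e3, hQc.eventually (ball_mem_nhds p₀ (half_pos hr))] with z a1 a2
    exact ⟨a1, a2⟩
  · rintro _ ⟨t, ht, rfl⟩
    have htT := htar t (hcb ht.1)
    refine ⟨fun y => G (χ y, v₁), ?_, ?_, ?_⟩
    · have h1 : ContMDiffAt 𝓘(ℂ, Cm q) 𝓘(ℂ, Cm q) ω χ (χ.symm t) :=
        (contMDiffOn_of_mem_maximalAtlas hχm).contMDiffAt
          (χ.open_source.mem_nhds (χ.map_target htT))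
      have h2 : ContMDiffAt 𝓘(ℂ, Cm q) 𝓘(ℂ, ℂ) ω (fun t => G (t, v₁)) (χ (χ.symm t)) := by
        rw [χ.right_inv htT]
        exact contMDiffAt_iff_contDiffAt.2 (hGt t (hcb ht.1)).contDiffAt
      exact ContMDiffAt.comp (g := fun t => G (t, v₁)) (f := χ) (χ.symm t) h2 h1
    · intro hev
      refine hG1 (ball_zero hGt (hcb ht.1) ?_ hp₁'.1)
      filter_upwards [(χ.continuousAt_symm htT).eventually hev,
        χ.open_target.mem_nhds htT] with t' a1 a2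
      rwa [χ.right_inv a2] at a1
    · filter_upwards with y hy
      obtain ⟨t', ht', rfl⟩ := hy
      rw [χ.right_inv (htar t' (hcb ht'.1))]
      exact ht'.2
  · rintro _ ⟨z, ⟨hz, ⟨a1, a2, a3⟩, a4⟩, rfl⟩
    have hz : ∀ᶠ z' in 𝓝 z, h z' = h z → z' ∈ H := hz
    rw [← ball_prod_same, mem_prod] at a4
    have b1 : (Q z).1 ∈ ball p₀.1 r := ball_subset_ball (by linarith) a4.1
    have b2 : (Q z).2 ∈ ball p₀.2 r := ball_subset_ball (by linarith) a4.2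
    have b3 : Ψ (Q z) = z := by
      show ψ.symm (R (Q z)) = z
      rw [a3, ψ.left_inv a1]
    refine ⟨(Q z).1, ⟨ball_subset_closedBall a4.1, ?_⟩, χ.left_inv a2⟩
    have hGv : ∀ v ∈ ball p₀.2 r, AnalyticAt ℂ (fun v => G ((Q z).1, v)) v := by
      intro v hv
      have h1 := (hbox ((Q z).1, v) ((hbp _).2 ⟨b1, hv⟩)).1
      exact AnalyticAt.fun_comp (g := G) (f := fun v => ((Q z).1, v)) h1
        (analyticAt_const.prod analyticAt_id)
    refine ball_zero hGv b2 ?_ hp₁'.2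
    obtain ⟨c1, c2, c3, c4, c5, c6⟩ := hbox (Q z) ((hbp _).2 ⟨b1, b2⟩)
    have d1 : Tendsto (fun v => ((Q z).1, v)) (𝓝 (Q z).2) (𝓝 (Q z)) :=
      (by fun_prop : Continuous fun v => ((Q z).1, v)).tendsto _
    have d2 : Tendsto Ψ (𝓝 (Q z)) (𝓝 z) := by
      have h1 := (ψ.continuousAt_symm c3).tendsto
      have h2 : ψ.symm (R (Q z)) = z := b3
      rw [h2] at h1
      exact h1.comp c4
    have d3 : Tendsto (fun v => Ψ ((Q z).1, v)) (𝓝 (Q z).2) (𝓝 z) := d2.comp d1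
    rw [b3] at c6
    filter_upwards [d3.eventually hz, d3.eventually c6, isOpen_ball.mem_nhds b2,
      d3.eventually (hhc.continuousAt.eventually (χ.open_source.mem_nhds a2))] with v f1 f2 f3 f4
    obtain ⟨-, g2, -, -, g5, -⟩ := hbox ((Q z).1, v) ((hbp _).2 ⟨b1, f3⟩)
    refine f2 (f1 ?_)
    have g3 : χ (h (Ψ ((Q z).1, v))) = χ (h z) := g2
    exact χ.injOn g5 a2 g3

/-- **General position** with respect to countably many thin sets. -/
theorem genpos (q c : ℕ) {Z Y : Type} [TopologicalSpace Z] [T2Space Z] [CompactSpace Z]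
    [ChartedSpace (Cm (q + c)) Z] [IsManifold 𝓘(ℂ, Cm (q + c)) ω Z] [TopologicalSpace Y]
    [T2Space Y] [ChartedSpace (Cm q) Y] [IsManifold 𝓘(ℂ, Cm q) ω Y] (h : Z → Y)
    (hh : ContMDiff 𝓘(ℂ, Cm (q + c)) 𝓘(ℂ, Cm q) ω h) (S : Set Y)
    (hP : IsProperFibration (n := q + c) (p := q) h S) (H : ℕ → Set Z)
    (hH : ∀ k, IsThinSet (Cm (q + c)) (H k)) :
    ∃ H' : ℕ → Set Y, (∀ k, IsThinSet (Cm q) (H' k)) ∧ ∀ y, y ∉ S → (∀ k, y ∉ H' k) →
      ∀ U : Set Z, IsOpen U → ∀ z₀ ∈ U, h z₀ = y → ∃ z ∈ U, h z = y ∧ ∀ k, z ∉ H k := by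
  have hsc : SecondCountableTopology Z :=
    ChartedSpace.secondCountable_of_sigmaCompact (Cm (q + c)) Z
  have h1 : ∀ k, SThin (Cm q) (h '' {z | h z ∉ S ∧ ∀ᶠ z' in 𝓝 z, h z' = h z → z' ∈ H k}) := by
    intro k
    refine SThin.image_of_local fun z hz => ?_
    obtain ⟨N, hN, hN'⟩ := loc_bad hh (hP.submersive z hz.1) (hH k)
    refine ⟨N, hN, hN'.mono (image_mono ?_)⟩
    rintro z' ⟨h2, h3⟩
    exact ⟨h2.2, h3⟩
  obtain ⟨H', hH', hsub⟩ := SThin.iUnion h1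
  refine ⟨H', hH', fun y hy hyH U hU z₀ hz₀ hz₀y => ?_⟩
  -- the fibre
  have hcl : IsClosed (h ⁻¹' {y}) := isClosed_singleton.preimage hh.continuous
  have : CompactSpace (h ⁻¹' {y}) := isCompact_iff_compactSpace.1 hcl.isCompact
  set V : ℕ → Set (h ⁻¹' {y}) := fun k => {z | (z : Z) ∉ H k} with hV
  have hVo : ∀ k, IsOpen (V k) := fun k => (hH k).1.isOpen_compl.preimage continuous_subtype_val
  have hVd : ∀ k, Dense (V k) := by
    intro k z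
    by_contra hz
    have h2 : ∀ᶠ z' in 𝓝 z, z' ∉ V k := by
      rw [mem_closure_iff_frequently, Filter.not_frequently] at hz
      exact hz
    have h3 : ∀ᶠ z' in 𝓝[h ⁻¹' {y}] (z : Z), z' ∈ H k := by
      rw [← map_nhds_subtype_val, eventually_map]
      filter_upwards [h2] with z' hz'
      exact not_not.1 hz'
    have hzy : h (z : Z) = y := z.2
    have h4 : h z ∈ h '' {z | h z ∉ S ∧ ∀ᶠ z' in 𝓝 z, h z' = h z → z' ∈ H k} := by
      refine ⟨z, ⟨by rw [hzy]; exact hy, ?_⟩, rfl⟩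
      rw [eventually_nhdsWithin_iff] at h3
      filter_upwards [h3] with z' hz' hz''
      exact hz' (by rw [mem_preimage, mem_singleton_iff, hz'', hzy])
    rw [hzy] at h4
    obtain ⟨j, hj⟩ := mem_iUnion.1 (hsub (mem_iUnion.2 ⟨k, h4⟩))
    exact hyH j hj
  have hd := dense_iInter_of_isOpen_nat hVo hVd
  obtain ⟨z, hz, hzV⟩ := hd.inter_open_nonempty (Subtype.val ⁻¹' U)
    (hU.preimage continuous_subtype_val) ⟨⟨z₀, hz₀y⟩, hz₀⟩
  exact ⟨z, hz, z.2, fun k => mem_iInter.1 hzV k⟩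

end Vale.Agent.P281.H125.TW
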